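import Vale.Agent.P181.H715.LT.Peel
import Vale.Agent.P181.H869.Star
import Vale.Agent.P181.H780.LT.KStar

set_option autoImplicit false

/-!
# P181: `b = a + 1`, shapes with `lam_a ≥ 2`: the plug
-/

open scoped TensorProduct

namespace Vale.Agent.P181.H715.LT

open Vale.Agent.P181 Vale.Agent.P181.H280 Vale.Agent.P181.H270 Vale.Agent.P181.H73
  Vale.Agent.P181.H983 Vale.Agent.P181.H780.LT Finset MvPolynomial

/-- [X4]: helper780's `StarStmt`. -/
theorem starStmt : StarStmt := by
  intro c hc F hs hR u hu w hw v hv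
  have hφ : IsSymm ((altC (xs (c + 3)))^[2] F) :=
    isSymm_of_even ⟨1, rfl⟩ (isSgn_iter hs (xs (c + 3)) 2)
  have hK : KillL (m := c + 1) (linS (c + 3)) ((altC (xs (c + 3)))^[2] F) := by
    intro l hl y hy
    exact kill c F hs hR l hl y hy
  have hS : StarL (m := c + 1) (linS (c + 3)) ((altC (xs (c + 3)))^[2] F) := by
    intro za zb z hza hzb hz
    exact H869.star (m := c + 1) (linS (c + 3)) F hs hR (xs (c + 3)) (xs_mem (c + 3)) za zb z
      hza hzb hz
  have hm : Even (c + 1 + 1) := by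
    obtain ⟨r, rfl⟩ := hc
    exact ⟨r + 1, by ring⟩
  have h1 := peelL hφ hK hS hm u w hu hw (fun i => v i.succ) (fun i => hv _)
  refine Eq.trans ?_ h1
  congr 1
  funext p
  refine Fin.cases ?_ (fun p => ?_) p
  · rw [if_pos rfl]
    rfl
  · rw [if_neg (Fin.succ_ne_zero p)]
    rfl

/-- **`F(a, a + 1, lam)` for all shapes with `lam_a ≥ 2`**, `a ≥ 3`. -/
theorem tallTwo : TallTwo := tallTwo_of_star starStmt

end Vale.Agent.P181.H715.LT
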