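import Vale.Agent.P181.H715.LT.Lab

set_option autoImplicit false
set_option linter.unusedSectionVars false

/-!
# P181: evaluation of the dissolved forms
-/

namespace Vale.Agent.P181.H715.LT

open Vale.Agent.P181 Vale.Agent.P181.H280 Vale.Agent.P181.H663 Finset

section Eval

variable {κ : Type} [Fintype κ] [DecidableEq κ] {m r : ℕ}

/-- The relabelling: the letter `e (σ k)` gets the label `β k`. -/
def lab (s : κ → Fin (m + 3)) (c : Fin (m + 3)) (e : Fin r ≃ {p // s p = c})
    (β : Fin r → Fin (m + 3)) (σ : Equiv.Perm (Fin r)) (p : κ) : Fin (m + 3) :=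
  if h : s p = c then β (σ.symm (e.symm ⟨p, h⟩)) else s p

lemma lab_e (s : κ → Fin (m + 3)) (c : Fin (m + 3)) (e : Fin r ≃ {p // s p = c})
    (β : Fin r → Fin (m + 3)) (σ : Equiv.Perm (Fin r)) (k : Fin r) :
    lab s c e β σ (e (σ k)).1 = β k := by
  unfold lab
  rw [dif_pos (e (σ k)).2]
  congr 1
  rw [Equiv.symm_apply_eq, Equiv.symm_apply_eq]

lemma lab_off (s : κ → Fin (m + 3)) (c : Fin (m + 3)) (e : Fin r ≃ {p // s p = c})
    (β : Fin r → Fin (m + 3)) (σ : Equiv.Perm (Fin r)) (p : κ) (hp : s p ≠ c) :
    lab s c e β σ p = s p := by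
  unfold lab
  rw [dif_neg hp]

lemma prod_lab {M : Type*} [CommMonoid M] (z : κ → M) (s : κ → Fin (m + 3)) (c : Fin (m + 3))
    (e : Fin r ≃ {p // s p = c}) (β : Fin r → Fin (m + 3)) (σ : Equiv.Perm (Fin r))
    (j : Fin (m + 3)) (hj : j ≠ c) :
    ∏ p ∈ univ.filter (fun p => lab s c e β σ p = j), z p =
      (∏ p ∈ univ.filter (fun p => s p = j), z p) *
        ∏ k, if β k = j then z (e (σ k)).1 else 1 := by
  have h1 : univ.filter (fun p => lab s c e β σ p = j) =
      (univ.filter (fun p => s p = j)) ∪
        (univ.filter (fun p => s p = c)).filter (fun p => lab s c e β σ p = j) := by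
    ext p
    simp only [Finset.mem_filter, Finset.mem_univ, true_and, Finset.mem_union]
    by_cases hc : s p = c
    · constructor
      · intro h
        exact Or.inr ⟨hc, h⟩
      · rintro (h | ⟨_, h⟩)
        · exact absurd (h.symm.trans hc) hj
        · exact h
    · rw [lab_off _ _ _ _ _ _ hc]
      constructor
      · intro h
        exact Or.inl h
      · rintro (h | ⟨h', _⟩)
        · exact h
        · exact absurd h' hc
  have h2 : Disjoint (univ.filter (fun p => s p = j))
      ((univ.filter (fun p => s p = c)).filter (fun p => lab s c e β σ p = j)) := by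
    rw [Finset.disjoint_left]
    intro p hp hp'
    rw [Finset.mem_filter] at hp
    rw [Finset.mem_filter, Finset.mem_filter] at hp'
    exact hj (hp.2.symm.trans hp'.1.2)
  rw [h1, Finset.prod_union h2]
  congr 1
  rw [Finset.prod_filter, ← Finset.prod_subtype_eq_prod_filter]
  have h3 : (univ : Finset κ).subtype (fun p => s p = c) = univ := by
    ext x
    simp
  rw [h3, ← Equiv.prod_comp (σ.trans e)]
  apply Finset.prod_congr rfl
  intro k _
  have h4 : (σ.trans e) k = e (σ k) := rfl
  rw [h4, lab_e]

lemma sum_lab {M : Type*} [AddCommMonoid M] (z : κ → M) (s : κ → Fin (m + 3)) (c : Fin (m + 3))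
    (e : Fin r ≃ {p // s p = c}) (β : Fin r → Fin (m + 3)) (σ : Equiv.Perm (Fin r))
    (j : Fin (m + 3)) (hj : j ≠ c) :
    ∑ p ∈ univ.filter (fun p => lab s c e β σ p = j), z p =
      (∑ p ∈ univ.filter (fun p => s p = j), z p) +
        ∑ k, if β k = j then z (e (σ k)).1 else 0 := by
  have h1 : univ.filter (fun p => lab s c e β σ p = j) =
      (univ.filter (fun p => s p = j)) ∪
        (univ.filter (fun p => s p = c)).filter (fun p => lab s c e β σ p = j) := by
    ext p
    simp only [Finset.mem_filter, Finset.mem_univ, true_and, Finset.mem_union]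
    by_cases hc : s p = c
    · constructor
      · intro h
        exact Or.inr ⟨hc, h⟩
      · rintro (h | ⟨_, h⟩)
        · exact absurd (h.symm.trans hc) hj
        · exact h
    · rw [lab_off _ _ _ _ _ _ hc]
      constructor
      · intro h
        exact Or.inl h
      · rintro (h | ⟨h', _⟩)
        · exact h
        · exact absurd h' hc
  have h2 : Disjoint (univ.filter (fun p => s p = j))
      ((univ.filter (fun p => s p = c)).filter (fun p => lab s c e β σ p = j)) := by
    rw [Finset.disjoint_left]
    intro p hp hp'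
    rw [Finset.mem_filter] at hp
    rw [Finset.mem_filter, Finset.mem_filter] at hp'
    exact hj (hp.2.symm.trans hp'.1.2)
  rw [h1, Finset.sum_union h2]
  congr 1
  rw [Finset.sum_filter, ← Finset.sum_subtype_eq_sum_filter]
  have h3 : (univ : Finset κ).subtype (fun p => s p = c) = univ := by
    ext x
    simp
  rw [h3, ← Equiv.sum_comp (σ.trans e)]
  apply Finset.sum_congr rfl
  intro k _
  have h4 : (σ.trans e) k = e (σ k) := rfl
  rw [h4, lab_e]

variable {A : Type*} [CommRing A] [Algebra ℂ A]

/-- Evaluation of the dissolved form. -/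
theorem eval {φ : MultilinearMap ℂ (fun _ : Fin (m + 2) => A) ℂ} (hφ : IsSymm φ) (z : κ → A)
    (c : Fin (m + 3)) (s : κ → Fin (m + 3)) (e : Fin r ≃ {p // s p = c})
    (β : Fin r → Fin (m + 3)) (hβ : Function.Injective β) (hβc : ∀ k, β k ≠ c)
    (h1 : ∀ k, cnt (β k) s = m) (h2 : ∀ j, j ≠ c → (∀ k, β k ≠ j) → cnt j s = m + 1)
    (ρ : Fin (m + 2) → Fin (m + 3)) (hρ : Function.Injective ρ) (hρc : ∀ i, ρ i ≠ c) :
    Wc φ z c s = ∑ σ : Equiv.Perm (Fin r),
      φ (fun i => part z s (ρ i) * ∏ k, if β k = ρ i then z (e (σ k)).1 else 1) := by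
  unfold Wc
  symm
  apply Fintype.sum_of_injective (fun σ : Equiv.Perm (Fin r) => lab s c e β σ)
  · intro σ σ' h
    ext k
    have h3 : lab s c e β σ (e (σ k)).1 = lab s c e β σ' (e (σ k)).1 := congrFun h _
    have h4 := lab_e s c e β σ' (σ'.symm (σ k))
    rw [Equiv.apply_symm_apply] at h4
    rw [lab_e, h4] at h3
    have h5 := hβ h3
    rw [Equiv.eq_symm_apply] at h5
    rw [h5]
  · intro u hu
    by_contra hne
    apply hu
    have h3 : ∀ p, s p ≠ c → u p = s p := by
      by_contra h
      exact hne (if_neg h)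
    rw [if_pos h3] at hne
    have h4 : ∀ j, j ≠ c → cnt j u = m + 1 := by
      by_contra h
      exact hne (if_neg h)
    have h5 : ∀ k, ∃ p : {p // s p = c}, u p.1 = β k := by
      intro k
      have h6 := h4 (β k) (hβc k)
      have h7 := h1 k
      have h8 : ∃ p, u p = β k ∧ s p ≠ β k := by
        by_contra h
        push Not at h
        have h9 : univ.filter (fun p => u p = β k) ⊆ univ.filter (fun p => s p = β k) := by
          intro p hp
          rw [Finset.mem_filter] at hp ⊢
          exact ⟨hp.1, h p hp.2⟩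
        have h10 := Finset.card_le_card h9
        unfold cnt at h6 h7
        omega
      obtain ⟨p, hp, hp'⟩ := h8
      refine ⟨⟨p, ?_⟩, hp⟩
      by_contra h
      exact hp' (by rw [← h3 p h, hp])
    choose g hg using h5
    have hinj : Function.Injective (fun k => e.symm (g k)) := by
      intro k k' h
      have h6 : g k = g k' := e.symm.injective h
      apply hβ
      rw [← hg, ← hg, h6]
    refine ⟨Equiv.ofBijective _ (Finite.injective_iff_bijective.1 hinj), ?_⟩
    funext p
    by_cases hp : s p = c
    · obtain ⟨k, hk⟩ := (Equiv.ofBijective _ (Finite.injective_iff_bijective.1 hinj)).surjective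
        (e.symm ⟨p, hp⟩)
      have h6 := lab_e s c e β (Equiv.ofBijective _ (Finite.injective_iff_bijective.1 hinj)) k
      rw [hk, Equiv.apply_symm_apply] at h6
      have h7 : g k = ⟨p, hp⟩ := e.symm.injective hk
      have h8 := hg k
      rw [h7] at h8
      exact h6.trans h8.symm
    · exact (lab_off _ _ _ _ _ _ hp).trans (h3 p hp).symm
  · intro σ
    have h3 : ∀ p, s p ≠ c → lab s c e β σ p = s p := fun p hp => lab_off _ _ _ _ _ _ hp
    rw [if_pos h3]
    have h4 : ∀ j, j ≠ c → cnt j (lab s c e β σ) = m + 1 := by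
      intro j hj
      have h5 := sum_lab (fun _ => 1) s c e β σ j hj
      rw [← Finset.card_eq_sum_ones, ← Finset.card_eq_sum_ones] at h5
      unfold cnt
      rw [h5]
      by_cases hj' : ∃ k, β k = j
      · obtain ⟨k, rfl⟩ := hj'
        have h6 := h1 k
        unfold cnt at h6
        rw [h6, Fintype.sum_eq_single k]
        · rw [if_pos rfl]
        · intro k' hk'
          rw [if_neg (fun h => hk' (hβ h))]
      · have h6 := h2 j hj (fun k hk => hj' ⟨k, hk⟩)
        unfold cnt at h6
        rw [h6, Finset.sum_eq_zero (fun k _ => if_neg (fun h => hj' ⟨k, h⟩)), add_zero]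
    rw [Phi, if_pos h4, ← enum hφ c ρ hρ hρc (part z (lab s c e β σ))]
    congr 1
    funext i
    exact (prod_lab z s c e β σ (ρ i) (hρc i)).symm

end Eval

end Vale.Agent.P181.H715.LT
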