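import Vale.Agent.P181.H715.LT.Eval

set_option autoImplicit false
set_option linter.unusedSectionVars false

/-!
# P181: the four facts about the labelled forms (helper663's X4)
-/

namespace Vale.Agent.P181.H715.LT

open Vale.Agent.P181 Vale.Agent.P181.H280 Vale.Agent.P181.H663 Finset

section Content

variable {κ : Type} [Fintype κ] [DecidableEq κ] {m : ℕ}

lemma cnt_up_self (s : κ → Fin (m + 3)) (p : κ) (i j : Fin (m + 3)) (hp : s p = i)
    (hij : i ≠ j) : cnt j (Function.update s p j) = cnt j s + 1 := by
  unfold cnt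
  have h1 : univ.filter (fun q => Function.update s p j q = j) =
      insert p (univ.filter (fun q => s q = j)) := by
    ext q
    simp only [Finset.mem_filter, Finset.mem_univ, true_and, Finset.mem_insert]
    by_cases hq : q = p
    · subst hq
      rw [Function.update_self]
      simp
    · rw [Function.update_of_ne hq]
      simp [hq]
  rw [h1, Finset.card_insert_of_notMem]
  rw [Finset.mem_filter]
  rintro ⟨_, h⟩
  exact hij (hp.symm.trans h)

lemma cnt_up_old (s : κ → Fin (m + 3)) (p : κ) (i j : Fin (m + 3)) (hp : s p = i)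
    (hij : i ≠ j) : cnt i (Function.update s p j) + 1 = cnt i s := by
  unfold cnt
  have h1 : univ.filter (fun q => s q = i) =
      insert p (univ.filter (fun q => Function.update s p j q = i)) := by
    ext q
    simp only [Finset.mem_filter, Finset.mem_univ, true_and, Finset.mem_insert]
    by_cases hq : q = p
    · subst hq
      simp [hp]
    · rw [Function.update_of_ne hq]
      simp [hq]
  rw [h1, Finset.card_insert_of_notMem]
  rw [Finset.mem_filter, Function.update_self]
  rintro ⟨_, h⟩
  exact hij h.symm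

lemma cnt_up_ne (s : κ → Fin (m + 3)) (p : κ) (i j k : Fin (m + 3)) (hp : s p = i)
    (hik : k ≠ i) (hjk : k ≠ j) : cnt k (Function.update s p j) = cnt k s := by
  unfold cnt
  congr 1
  ext q
  simp only [Finset.mem_filter, Finset.mem_univ, true_and]
  by_cases hq : q = p
  · subst hq
    rw [Function.update_self, hp]
    exact ⟨fun h => absurd h.symm hjk, fun h => absurd h.symm hik⟩
  · rw [Function.update_of_ne hq]

/-- `a` and `b` have `m + 1` letters, the others `m`. -/
def Cont (a b : Fin (m + 3)) (s : κ → Fin (m + 3)) : Prop :=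
  ∀ j, cnt j s = if j = a ∨ j = b then m + 1 else m

instance (a b : Fin (m + 3)) (s : κ → Fin (m + 3)) : Decidable (Cont a b s) := by
  unfold Cont
  infer_instance

lemma cont_symm (a b : Fin (m + 3)) (s : κ → Fin (m + 3)) : Cont a b s ↔ Cont b a s := by
  unfold Cont
  simp only [or_comm]

lemma cont_comp (τ : Equiv.Perm (Fin (m + 3))) (a b : Fin (m + 3)) (s : κ → Fin (m + 3)) :
    Cont (τ a) (τ b) (fun p => τ (s p)) ↔ Cont a b s := by
  unfold Cont
  constructor
  · intro h j
    have h1 := h (τ j)
    rw [cnt_comp] at h1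
    simpa only [EmbeddingLike.apply_eq_iff_eq] using h1
  · intro h j
    have h1 := h (τ.symm j)
    have h2 := cnt_comp τ s (τ.symm j)
    rw [Equiv.apply_symm_apply] at h2
    rw [h2, h1]
    simp only [Equiv.symm_apply_eq]

/-- Moving a letter from `c` to `b`. -/
lemma cont_update (a b c : Fin (m + 3)) (hab : a ≠ b) (hac : a ≠ c) (hbc : b ≠ c)
    (s : κ → Fin (m + 3)) (p : κ) (hp : s p = c) :
    Cont a b (Function.update s p b) ↔ Cont a c s := by
  have h1 := cnt_up_self s p c b hp hbc.symm
  have h2 := cnt_up_old s p c b hp hbc.symm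
  constructor
  · intro h j
    have h3 := h j
    by_cases hja : j = a
    · subst hja
      rw [cnt_up_ne s p c b j hp hac hab, if_pos (Or.inl rfl)] at h3
      rw [if_pos (Or.inl rfl), h3]
    · by_cases hjb : j = b
      · subst hjb
        rw [h1, if_pos (Or.inr rfl)] at h3
        rw [if_neg (by rintro (h | h); exacts [hja h, hbc h])]
        omega
      · by_cases hjc : j = c
        · subst hjc
          rw [if_neg (by rintro (h | h); exacts [hja h, hjb h])] at h3
          rw [if_pos (Or.inr rfl)]
          omega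
        · rw [cnt_up_ne s p c b j hp hjc hjb, if_neg (by rintro (h | h); exacts [hja h, hjb h])]
            at h3
          rw [if_neg (by rintro (h | h); exacts [hja h, hjc h]), h3]
  · intro h j
    have h3 := h j
    by_cases hja : j = a
    · subst hja
      rw [cnt_up_ne s p c b j hp hac hab, if_pos (Or.inl rfl)]
      rw [if_pos (Or.inl rfl)] at h3
      rw [h3]
    · by_cases hjb : j = b
      · subst hjb
        rw [h1, if_pos (Or.inr rfl)]
        rw [if_neg (by rintro (h | h); exacts [hja h, hbc h])] at h3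
        omega
      · by_cases hjc : j = c
        · subst hjc
          rw [if_neg (by rintro (h | h); exacts [hja h, hjb h])]
          rw [if_pos (Or.inr rfl)] at h3
          omega
        · rw [cnt_up_ne s p c b j hp hjc hjb, if_neg (by rintro (h | h); exacts [hja h, hjb h])]
          rw [if_neg (by rintro (h | h); exacts [hja h, hjc h])] at h3
          rw [h3]

/-- Moving a letter from `b` to `a`. -/
lemma cont_update' (a b : Fin (m + 3)) (hab : a ≠ b)
    (s : κ → Fin (m + 3)) (p : κ) (hp : s p = b) (h : Cont a b (Function.update s p a)) :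
    cnt b s = m + 2 ∧ ∀ j, j ≠ b → cnt j s = m := by
  have h1 := cnt_up_self s p b a hp hab.symm
  have h2 := cnt_up_old s p b a hp hab.symm
  constructor
  · have h3 := h b
    rw [if_pos (Or.inr rfl)] at h3
    omega
  · intro j hj
    have h3 := h j
    by_cases hja : j = a
    · subst hja
      rw [if_pos (Or.inl rfl)] at h3
      omega
    · rw [cnt_up_ne s p b a j hp hj hja, if_neg (by rintro (h | h); exacts [hja h, hj h])] at h3
      exact h3

end Content

section Facts

variable {A : Type*} [CommRing A] [Algebra ℂ A] {κ : Type} [Fintype κ] [DecidableEq κ] {m : ℕ}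

lemma prod_mem_pow (L : Submodule ℂ A) (z : κ → A) (hz : ∀ p, z p ∈ L) (t : Finset κ) :
    ∏ p ∈ t, z p ∈ L ^ t.card := by
  induction t using Finset.induction_on with
  | empty =>
    rw [Finset.prod_empty, Finset.card_empty, pow_zero]
    exact Submodule.one_le.1 le_rfl
  | insert p t hp ih =>
    rw [Finset.prod_insert hp, Finset.card_insert_of_notMem hp, pow_succ']
    exact Submodule.mul_mem_mul (hz p) ih

lemma part_mem (L : Submodule ℂ A) (z : κ → A) (hz : ∀ p, z p ∈ L) (s : κ → Fin (m + 3))
    (j : Fin (m + 3)) (n : ℕ) (hn : cnt j s = n) : part z s j ∈ L ^ n := by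
  rw [← hn]
  exact prod_mem_pow L z hz _

lemma part_e {r : ℕ} (z : κ → A) (s : κ → Fin (m + 3)) (c : Fin (m + 3))
    (e : Fin r ≃ {p // s p = c}) : part z s c = ∏ i, z (e i).1 := by
  unfold part
  rw [← Finset.prod_subtype_eq_prod_filter]
  have h3 : (univ : Finset κ).subtype (fun p => s p = c) = univ := by
    ext x
    simp
  rw [h3, ← Equiv.prod_comp e]

lemma exists_e {r : ℕ} (s : κ → Fin (m + 3)) (c : Fin (m + 3)) (h : cnt c s = r) :
    Nonempty (Fin r ≃ {p // s p = c}) := by
  refine ⟨(Fintype.equivFinOfCardEq ?_).symm⟩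
  rw [Fintype.card_subtype]
  exact h

/-- The hypothesis: common linear factors are killed. -/
def KillL (L : Submodule ℂ A) (φ : MultilinearMap ℂ (fun _ : Fin (m + 2) => A) ℂ) : Prop :=
  ∀ l ∈ L, ∀ y : Fin (m + 2) → A, (∀ i, y i ∈ L ^ m) → φ (fun i => l * y i) = 0

/-- Helper869's relation. -/
def StarL (L : Submodule ℂ A) (φ : MultilinearMap ℂ (fun _ : Fin (m + 2) => A) ℂ) : Prop :=
  ∀ (za zb : Fin (m + 1) → A) (z : Fin (m + 1) → Fin m → A), (∀ i, za i ∈ L) →
    (∀ i, zb i ∈ L) → (∀ c i, z c i ∈ L) →
    (∑ s : Equiv.Perm (Fin (m + 1)),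
      φ (Fin.cons (∏ i, zb i) (fun c => za (s c) * ∏ i, z c i))) +
    (∑ s : Equiv.Perm (Fin (m + 1)),
      φ (Fin.cons (∏ i, za i) (fun c => zb (s c) * ∏ i, z c i))) =
    ∑ c : Fin (m + 1), ∑ s : Equiv.Perm (Fin m), φ (Fin.cons (∏ i, zb i)
      (c.insertNth (∏ i, za i) (fun j => z c (s j) * ∏ i, z (c.succAbove j) i)))

variable {L : Submodule ℂ A} {φ : MultilinearMap ℂ (fun _ : Fin (m + 2) => A) ℂ} {z : κ → A}

/-- KILL in labels. -/
lemma kill0 (hφ : IsSymm φ) (hK : KillL L φ) (hz : ∀ p, z p ∈ L) (c : Fin (m + 3))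
    (s : κ → Fin (m + 3)) (h1 : cnt c s = m + 2) (h2 : ∀ j, j ≠ c → cnt j s = m) :
    Wc φ z c s = 0 := by
  obtain ⟨e⟩ := exists_e s c h1
  rw [eval hφ z c s e c.succAbove Fin.succAbove_right_injective (Fin.succAbove_ne c)
    (fun k => h2 _ (Fin.succAbove_ne c k))
    (fun j hj h => absurd (Fin.exists_succAbove_eq hj) (fun ⟨k, hk⟩ => h k hk))
    c.succAbove Fin.succAbove_right_injective (Fin.succAbove_ne c)]
  have h3 := polar (mulArg φ (fun i => part z s (c.succAbove i))) L (by
    intro l hl
    rw [mulArg_apply, ← hK l hl (fun i => part z s (c.succAbove i)) (fun i =>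
      part_mem L z hz s _ m (h2 _ (Fin.succAbove_ne c i)))]
    congr 1
    funext i
    rw [mul_comm]) (fun k => z (e k).1) (fun k => hz _)
  rw [← h3]
  apply Finset.sum_congr rfl
  intro σ _
  rw [mulArg_apply]
  congr 1
  funext i
  congr 1
  rw [Fintype.prod_eq_single i]
  · rw [if_pos rfl]
  · intro k hk
    rw [if_neg (fun h => hk (Fin.succAbove_right_injective h))]

/-- The form `Wc c` on the content `(a, b)`, with a dummy word. -/
noncomputable def G (φ : MultilinearMap ℂ (fun _ : Fin (m + 2) => A) ℂ) (z : κ → A)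
    (a b c : Fin (m + 3)) : (κ → Fin (m + 3)) → Unit → ℂ :=
  fun s _ => if Cont a b s then Wc φ z c s else 0

lemma G_symm (a b c : Fin (m + 3)) : G φ z a b c = G φ z b a c := by
  funext s w
  unfold G
  by_cases h : Cont a b s
  · rw [if_pos h, if_pos ((cont_symm a b s).1 h)]
  · rw [if_neg h, if_neg (fun h' => h ((cont_symm a b s).2 h'))]

/-- (1) -/
lemma fact1 (hφ : IsSymm φ) (hK : KillL L φ) (hz : ∀ p, z p ∈ L) (a b : Fin (m + 3))
    (hab : a ≠ b) : EE b a (G φ z a b b) = 0 := by
  funext s w
  rw [EE]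
  change ∑ p ∈ univ.filter (fun p => s p = b), G φ z a b b (Function.update s p a) w = 0
  by_cases h : cnt b s = m + 2 ∧ ∀ j, j ≠ b → cnt j s = m
  · have h1 := Wc_step φ z b a hab s
    rw [kill0 hφ hK hz b s h.1 h.2, mul_zero] at h1
    rw [← h1]
    apply Finset.sum_congr rfl
    intro p hp
    rw [Finset.mem_filter] at hp
    unfold G
    rw [if_pos]
    intro j
    by_cases hja : j = a
    · subst hja
      rw [cnt_up_self s p b j hp.2 hab.symm, if_pos (Or.inl rfl), h.2 j hab]
    · by_cases hjb : j = b
      · subst hjb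
        have h2 := cnt_up_old s p j a hp.2 hab.symm
        rw [if_pos (Or.inr rfl)]
        have h3 := h.1
        omega
      · rw [cnt_up_ne s p b a j hp.2 hjb hja, if_neg (by rintro (h | h); exacts [hja h, hjb h]),
          h.2 j hjb]
  · apply Finset.sum_eq_zero
    intro p hp
    rw [Finset.mem_filter] at hp
    unfold G
    rw [if_neg (fun h' => h (cont_update' a b hab s p hp.2 h'))]

/-- The exchange. -/
lemma exchW (hφ : IsSymm φ) (hK : KillL L φ) (hz : ∀ p, z p ∈ L) (hm : Even (m + 1))
    (a b : Fin (m + 3)) (hab : a ≠ b) : G φ z a b a = G φ z a b b := by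
  have h1 := exch a b hab (m + 1) (G φ z a b b) (by
    intro s w h
    unfold G
    rw [if_neg]
    intro h'
    have h2 := h' a
    have h3 := h' b
    rw [if_pos (Or.inl rfl)] at h2
    rw [if_pos (Or.inr rfl)] at h3
    rcases h with h | h
    · exact h h2
    · exact h h3) (fact1 hφ hK hz a b hab)
  funext s w
  have h2 := congrFun (congrFun h1 s) w
  rw [hm.neg_one_pow, one_mul] at h2
  rw [← h2]
  change G φ z a b a s w = G φ z a b b (fun p => (Equiv.swap a b)⁻¹ (s p)) w
  rw [Equiv.swap_inv]
  unfold G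
  have h3 := cont_comp (Equiv.swap a b) b a s
  rw [Equiv.swap_apply_left, Equiv.swap_apply_right] at h3
  have h4 := Wc_comp hφ z a (Equiv.swap a b) s
  rw [Equiv.swap_apply_left] at h4
  by_cases h : Cont a b s
  · rw [if_pos h, if_pos (h3.2 ((cont_symm a b s).1 h)), h4]
  · rw [if_neg h, if_neg (fun h' => h ((cont_symm a b s).2 (h3.1 h')))]

/-- (2) -/
lemma fact2 (hφ : IsSymm φ) (a b c : Fin (m + 3)) (hca : c ≠ a) (hcb : c ≠ b) :
    act (Equiv.swap a b) (G φ z a b c) = G φ z a b c := by
  funext s w
  change G φ z a b c (fun p => (Equiv.swap a b)⁻¹ (s p)) w = _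
  rw [Equiv.swap_inv]
  unfold G
  have h3 := cont_comp (Equiv.swap a b) b a s
  rw [Equiv.swap_apply_left, Equiv.swap_apply_right] at h3
  have h4 := Wc_comp hφ z c (Equiv.swap a b) s
  rw [Equiv.swap_apply_of_ne_of_ne hca hcb] at h4
  by_cases h : Cont a b s
  · rw [if_pos h, if_pos (h3.2 ((cont_symm a b s).1 h)), h4]
  · rw [if_neg h, if_neg (fun h' => h ((cont_symm a b s).2 (h3.1 h')))]

/-- (3) -/
lemma fact3 (hφ : IsSymm φ) (a b c : Fin (m + 3)) (hab : a ≠ b) (hca : c ≠ a) (hcb : c ≠ b) :
    EE b c (act (Equiv.swap b c) (G φ z a b c)) = G φ z a b b := by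
  funext s w
  change ∑ p ∈ univ.filter (fun p => s p = b),
    G φ z a b c (fun q => (Equiv.swap b c)⁻¹ (Function.update s p c q)) w = G φ z a b b s w
  rw [Equiv.swap_inv]
  set s' : κ → Fin (m + 3) := fun q => Equiv.swap b c (s q) with hs'
  have h1 : univ.filter (fun p => s p = b) = univ.filter (fun p => s' p = c) := by
    ext p
    simp only [Finset.mem_filter, Finset.mem_univ, true_and, hs']
    rw [Equiv.swap_apply_eq_iff, Equiv.swap_apply_right]
  have h2 : ∀ p, (fun q => Equiv.swap b c (Function.update s p c q)) =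
      Function.update s' p b := by
    intro p
    funext q
    by_cases hq : q = p
    · subst hq
      rw [Function.update_self, Function.update_self, Equiv.swap_apply_right]
    · rw [Function.update_of_ne hq, Function.update_of_ne hq]
  rw [h1, Finset.sum_congr rfl (fun p _ => by rw [h2 p])]
  have h3 := cont_comp (Equiv.swap b c) a b s
  rw [Equiv.swap_apply_left, Equiv.swap_apply_of_ne_of_ne hab hca.symm] at h3
  unfold G
  by_cases h : Cont a b s
  · rw [if_pos h]
    have h4 := h3.2 h
    have h5 := Wc_step φ z c b hcb.symm s'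
    have h6 : cnt b s' = m := by
      have h7 := h4 b
      rw [if_neg (by rintro (h | h); exacts [hab h.symm, hcb h.symm])] at h7
      exact h7
    rw [h6, add_sub_cancel_left, one_mul] at h5
    have h7 := Wc_comp hφ z b (Equiv.swap b c) s
    rw [Equiv.swap_apply_left] at h7
    rw [← h7]
    refine Eq.trans ?_ h5
    apply Finset.sum_congr rfl
    intro p hp
    rw [Finset.mem_filter] at hp
    rw [if_pos ((cont_update a b c hab hca.symm hcb.symm s' p hp.2).2 h4)]
  · rw [if_neg h]
    apply Finset.sum_eq_zero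
    intro p hp
    rw [Finset.mem_filter] at hp
    rw [if_neg]
    intro h'
    exact h (h3.1 ((cont_update a b c hab hca.symm hcb.symm s' p hp.2).1 h'))

end Facts

end Vale.Agent.P181.H715.LT
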