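import Vale.Agent.P181.H663.Exch
import Vale.Agent.P181.H280.Form

set_option autoImplicit false

/-!
# P181: labelled words (helper663's X4)

`κ` is the set of letters, the labels are `Fin (m + 3)`; `z : κ → A` is a word, `φ` a symmetric
form on `m + 2` slots.
-/

namespace Vale.Agent.P181.H715.LT

open Vale.Agent.P181 Vale.Agent.P181.H280 Vale.Agent.P181.H663 Finset

section Lab

variable {A : Type*} [CommRing A] [Algebra ℂ A] {κ : Type} [Fintype κ] [DecidableEq κ] {m : ℕ}

/-- The particle with label `j`. -/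
def part (z : κ → A) (s : κ → Fin (m + 3)) (j : Fin (m + 3)) : A :=
  ∏ p ∈ univ.filter (fun p => s p = j), z p

/-- The value of `φ` at the labelled word, labels `≠ c`. -/
noncomputable def Phi (φ : MultilinearMap ℂ (fun _ : Fin (m + 2) => A) ℂ) (z : κ → A)
    (c : Fin (m + 3)) (s : κ → Fin (m + 3)) : ℂ :=
  if ∀ j, j ≠ c → cnt j s = m + 1 then φ (fun i => part z s (c.succAbove i)) else 0

/-- Dissolve the particle `c` in all ways. -/
noncomputable def Wc (φ : MultilinearMap ℂ (fun _ : Fin (m + 2) => A) ℂ) (z : κ → A)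
    (c : Fin (m + 3)) (s : κ → Fin (m + 3)) : ℂ :=
  ∑ u : κ → Fin (m + 3), if ∀ p, s p ≠ c → u p = s p then Phi φ z c u else 0

lemma enum {φ : MultilinearMap ℂ (fun _ : Fin (m + 2) => A) ℂ} (hφ : IsSymm φ)
    (c : Fin (m + 3)) (ρ : Fin (m + 2) → Fin (m + 3)) (hρ : Function.Injective ρ)
    (hc : ∀ i, ρ i ≠ c) (f : Fin (m + 3) → A) :
    φ (fun i => f (ρ i)) = φ (fun i => f (c.succAbove i)) := by
  have h1 : ∀ i, ∃ k, c.succAbove k = ρ i := fun i => Fin.exists_succAbove_eq (hc i)
  choose g hg using h1
  have hinj : Function.Injective g := by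
    intro i i' h
    apply hρ
    rw [← hg, ← hg, h]
  have hbij : Function.Bijective g := Finite.injective_iff_bijective.1 hinj
  have h2 := hφ (Equiv.ofBijective g hbij) (fun i => f (c.succAbove i))
  rw [← h2]
  congr 1
  funext i
  rw [Equiv.ofBijective_apply, hg]

lemma cnt_comp (τ : Equiv.Perm (Fin (m + 3))) (s : κ → Fin (m + 3)) (j : Fin (m + 3)) :
    cnt (τ j) (fun p => τ (s p)) = cnt j s := by
  unfold cnt
  congr 1
  ext p
  simp only [Finset.mem_filter, Finset.mem_univ, true_and, EmbeddingLike.apply_eq_iff_eq]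

lemma part_comp (z : κ → A) (τ : Equiv.Perm (Fin (m + 3))) (s : κ → Fin (m + 3))
    (j : Fin (m + 3)) : part z (fun p => τ (s p)) (τ j) = part z s j := by
  unfold part
  congr 1
  ext p
  simp only [Finset.mem_filter, Finset.mem_univ, true_and, EmbeddingLike.apply_eq_iff_eq]

lemma Phi_comp {φ : MultilinearMap ℂ (fun _ : Fin (m + 2) => A) ℂ} (hφ : IsSymm φ) (z : κ → A)
    (c : Fin (m + 3)) (τ : Equiv.Perm (Fin (m + 3))) (s : κ → Fin (m + 3)) :
    Phi φ z (τ c) (fun p => τ (s p)) = Phi φ z c s := by
  unfold Phi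
  have h1 : (∀ j, j ≠ τ c → cnt j (fun p => τ (s p)) = m + 1) ↔
      (∀ j, j ≠ c → cnt j s = m + 1) := by
    constructor
    · intro h j hj
      rw [← cnt_comp τ s j]
      exact h (τ j) (fun h' => hj (τ.injective h'))
    · intro h j hj
      have h2 := cnt_comp τ s (τ.symm j)
      rw [Equiv.apply_symm_apply] at h2
      rw [h2]
      apply h
      intro h'
      apply hj
      rw [← h', Equiv.apply_symm_apply]
  by_cases h : ∀ j, j ≠ c → cnt j s = m + 1
  · rw [if_pos h, if_pos (h1.2 h)]
    rw [← enum hφ (τ c) (fun i => τ (c.succAbove i))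
      (τ.injective.comp Fin.succAbove_right_injective)
      (fun i h' => Fin.succAbove_ne c i (τ.injective h')) (part z (fun p => τ (s p)))]
    congr 1
    funext i
    exact part_comp z τ s _
  · rw [if_neg h, if_neg (fun h' => h (h1.1 h'))]

lemma Wc_comp {φ : MultilinearMap ℂ (fun _ : Fin (m + 2) => A) ℂ} (hφ : IsSymm φ) (z : κ → A)
    (c : Fin (m + 3)) (τ : Equiv.Perm (Fin (m + 3))) (s : κ → Fin (m + 3)) :
    Wc φ z (τ c) (fun p => τ (s p)) = Wc φ z c s := by
  unfold Wc
  rw [← Equiv.sum_comp (Equiv.arrowCongr (Equiv.refl κ) τ)]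
  apply Finset.sum_congr rfl
  intro u _
  have h0 : (Equiv.arrowCongr (Equiv.refl κ) τ) u = fun p => τ (u p) := rfl
  rw [h0, Phi_comp hφ]
  have h1 : (∀ p, τ (s p) ≠ τ c → τ (u p) = τ (s p)) ↔ (∀ p, s p ≠ c → u p = s p) := by
    constructor
    · intro h p hp
      exact τ.injective (h p (fun h' => hp (τ.injective h')))
    · intro h p hp
      rw [h p (fun h' => hp (by rw [h']))]
  by_cases h : ∀ p, s p ≠ c → u p = s p
  · rw [if_pos h, if_pos (h1.2 h)]
  · rw [if_neg h, if_neg (fun h' => h (h1.1 h'))]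

/-- One step: give one letter of `c` to `j`. -/
lemma Wc_step (φ : MultilinearMap ℂ (fun _ : Fin (m + 2) => A) ℂ) (z : κ → A)
    (c j : Fin (m + 3)) (hj : j ≠ c) (s : κ → Fin (m + 3)) :
    ∑ p ∈ univ.filter (fun p => s p = c), Wc φ z c (Function.update s p j) =
      ((m : ℂ) + 1 - (cnt j s : ℂ)) * Wc φ z c s := by
  unfold Wc
  rw [Finset.sum_comm, Finset.mul_sum]
  apply Finset.sum_congr rfl
  intro u _
  have h1 : ∀ p ∈ univ.filter (fun p => s p = c),
      (if ∀ q, (Function.update s p j) q ≠ c → u q = (Function.update s p j) q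
        then Phi φ z c u else 0) =
      if u p = j then (if ∀ q, s q ≠ c → u q = s q then Phi φ z c u else 0) else 0 := by
    intro p hp
    rw [Finset.mem_filter] at hp
    have h2 : (∀ q, (Function.update s p j) q ≠ c → u q = (Function.update s p j) q) ↔
        (u p = j ∧ ∀ q, s q ≠ c → u q = s q) := by
      constructor
      · intro h
        refine ⟨?_, ?_⟩
        · have h3 := h p
          rw [Function.update_self] at h3
          exact h3 hj
        · intro q hq
          have hqp : q ≠ p := by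
            rintro rfl
            exact hq hp.2
          have h3 := h q
          rw [Function.update_of_ne hqp] at h3
          exact h3 hq
      · rintro ⟨h3, h4⟩ q
        by_cases hqp : q = p
        · subst hqp
          rw [Function.update_self]
          intro _
          exact h3
        · rw [Function.update_of_ne hqp]
          exact h4 q
    by_cases h3 : u p = j
    · rw [if_pos h3]
      by_cases h4 : ∀ q, s q ≠ c → u q = s q
      · rw [if_pos h4, if_pos (h2.2 ⟨h3, h4⟩)]
      · rw [if_neg h4, if_neg (fun h => h4 (h2.1 h).2)]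
    · rw [if_neg h3, if_neg (fun h => h3 (h2.1 h).1)]
  rw [Finset.sum_congr rfl h1, ← Finset.sum_filter, Finset.sum_const, nsmul_eq_mul,
    Finset.filter_filter]
  by_cases h2 : ∀ q, s q ≠ c → u q = s q
  swap
  · rw [if_neg h2, mul_zero, mul_zero]
  rw [if_pos h2]
  by_cases h3 : ∀ i, i ≠ c → cnt i u = m + 1
  swap
  · rw [Phi, if_neg h3, mul_zero, mul_zero]
  congr 1
  have h4 : (univ.filter (fun p => u p = j)) =
      (univ.filter (fun p => s p = c ∧ u p = j)) ∪ (univ.filter (fun p => s p = j)) := by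
    ext p
    simp only [Finset.mem_filter, Finset.mem_univ, true_and, Finset.mem_union]
    constructor
    · intro hp
      by_cases hc : s p = c
      · exact Or.inl ⟨hc, hp⟩
      · right
        rw [← h2 p hc, hp]
    · rintro (⟨_, hp⟩ | hp)
      · exact hp
      · rw [h2 p (by rw [hp]; exact hj), hp]
  have h5 : Disjoint (univ.filter (fun p => s p = c ∧ u p = j))
      (univ.filter (fun p => s p = j)) := by
    rw [Finset.disjoint_left]
    intro p hp hp'
    rw [Finset.mem_filter] at hp hp'
    exact hj (hp'.2.symm.trans hp.2.1)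
  have h6 := h3 j hj
  unfold cnt at h6 ⊢
  rw [h4, Finset.card_union_of_disjoint h5] at h6
  have h7 : ((univ.filter (fun p => s p = c ∧ u p = j)).card : ℂ) +
      ((univ.filter (fun p => s p = j)).card : ℂ) = (m : ℂ) + 1 := by
    exact_mod_cast h6
  linear_combination h7

end Lab

end Vale.Agent.P181.H715.LT
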