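import Vale.Agent.P181.H715.LT.Facts

set_option autoImplicit false
set_option linter.unusedSectionVars false

/-!
# P181: from KILL and STAR to PEEL (helper663's X4)
-/

namespace Vale.Agent.P181.H715.LT

open Vale.Agent.P181 Vale.Agent.P181.H280 Vale.Agent.P181.H663 Finset

section Star

variable {A : Type*} [CommRing A] [Algebra ℂ A] {κ : Type} [Fintype κ] [DecidableEq κ] {m : ℕ}
  {L : Submodule ℂ A} {φ : MultilinearMap ℂ (fun _ : Fin (m + 2) => A) ℂ} {z : κ → A}

lemma cases3 (j : Fin (m + 3)) : j = 0 ∨ j = 1 ∨ ∃ k : Fin (m + 1), j = k.succ.succ := by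
  refine Fin.cases (Or.inl rfl) (fun j => ?_) j
  refine Fin.cases (Or.inr (Or.inl rfl)) (fun j => ?_) j
  exact Or.inr (Or.inr ⟨j, rfl⟩)

lemma ss_ne_zero (k : Fin (m + 1)) : (k.succ.succ : Fin (m + 3)) ≠ 0 := Fin.succ_ne_zero _

lemma ss_ne_one (k : Fin (m + 1)) : (k.succ.succ : Fin (m + 3)) ≠ 1 := by
  intro h
  rw [← Fin.succ_zero_eq_one] at h
  exact Fin.succ_ne_zero _ (Fin.succ_injective _ h)

lemma ss_inj : Function.Injective (fun k : Fin (m + 1) => (k.succ.succ : Fin (m + 3))) :=
  fun _ _ h => Fin.succ_injective _ (Fin.succ_injective _ h)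

lemma zno : (0 : Fin (m + 3)) ≠ 1 := by
  rw [← Fin.succ_zero_eq_one]
  exact (Fin.succ_ne_zero _).symm

lemma cont_zero {s : κ → Fin (m + 3)} (hs : Cont 0 1 s) : cnt 0 s = m + 1 := by
  have h := hs 0
  rwa [if_pos (Or.inl rfl)] at h

lemma cont_one {s : κ → Fin (m + 3)} (hs : Cont 0 1 s) : cnt 1 s = m + 1 := by
  have h := hs 1
  rwa [if_pos (Or.inr rfl)] at h

lemma cont_ss {s : κ → Fin (m + 3)} (hs : Cont 0 1 s) (k : Fin (m + 1)) :
    cnt k.succ.succ s = m := by
  have h := hs k.succ.succ
  rwa [if_neg (by rintro (h | h); exacts [ss_ne_zero k h, ss_ne_one k h])] at h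

lemma eval_zero (hφ : IsSymm φ) {s : κ → Fin (m + 3)} (hs : Cont 0 1 s)
    (e : Fin (m + 1) ≃ {p // s p = 0}) :
    Wc φ z 0 s = ∑ σ : Equiv.Perm (Fin (m + 1)),
      φ (Fin.cons (part z s 1) (fun c => z (e (σ c)).1 * part z s c.succ.succ)) := by
  rw [eval hφ z 0 s e (fun k => k.succ.succ) ss_inj ss_ne_zero (cont_ss hs)
    (fun j hj h => by
      rcases cases3 j with rfl | rfl | ⟨k, rfl⟩
      · exact absurd rfl hj
      · exact cont_one hs
      · exact absurd rfl (h k))
    (Fin.cons 1 (fun k => k.succ.succ))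
    (by
      rw [Fin.cons_injective_iff]
      refine ⟨?_, ss_inj⟩
      rintro ⟨k, hk⟩
      exact ss_ne_one k hk)
    (fun i => by
      refine Fin.cases ?_ (fun i => ?_) i
      · rw [Fin.cons_zero]
        exact zno.symm
      · rw [Fin.cons_succ]
        exact ss_ne_zero i)]
  apply Finset.sum_congr rfl
  intro σ _
  congr 1
  funext i
  refine Fin.cases ?_ (fun i => ?_) i
  · rw [Fin.cons_zero, Fin.cons_zero, Finset.prod_eq_one, mul_one]
    intro k _
    rw [if_neg (ss_ne_one k)]
  · rw [Fin.cons_succ, Fin.cons_succ, Fintype.prod_eq_single i]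
    · rw [if_pos rfl, mul_comm]
    · intro k hk
      rw [if_neg (fun h => hk (ss_inj h))]

lemma eval_one (hφ : IsSymm φ) {s : κ → Fin (m + 3)} (hs : Cont 0 1 s)
    (e : Fin (m + 1) ≃ {p // s p = 1}) :
    Wc φ z 1 s = ∑ σ : Equiv.Perm (Fin (m + 1)),
      φ (Fin.cons (part z s 0) (fun c => z (e (σ c)).1 * part z s c.succ.succ)) := by
  rw [eval hφ z 1 s e (fun k => k.succ.succ) ss_inj ss_ne_one (cont_ss hs)
    (fun j hj h => by
      rcases cases3 j with rfl | rfl | ⟨k, rfl⟩
      · exact cont_zero hs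
      · exact absurd rfl hj
      · exact absurd rfl (h k))
    (Fin.cons 0 (fun k => k.succ.succ))
    (by
      rw [Fin.cons_injective_iff]
      refine ⟨?_, ss_inj⟩
      rintro ⟨k, hk⟩
      exact ss_ne_zero k hk)
    (fun i => by
      refine Fin.cases ?_ (fun i => ?_) i
      · rw [Fin.cons_zero]
        exact zno
      · rw [Fin.cons_succ]
        exact ss_ne_one i)]
  apply Finset.sum_congr rfl
  intro σ _
  congr 1
  funext i
  refine Fin.cases ?_ (fun i => ?_) i
  · rw [Fin.cons_zero, Fin.cons_zero, Finset.prod_eq_one, mul_one]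
    intro k _
    rw [if_neg (ss_ne_zero k)]
  · rw [Fin.cons_succ, Fin.cons_succ, Fintype.prod_eq_single i]
    · rw [if_pos rfl, mul_comm]
    · intro k hk
      rw [if_neg (fun h => hk (ss_inj h))]

lemma eval_ss (hφ : IsSymm φ) {s : κ → Fin (m + 3)} (hs : Cont 0 1 s) (k : Fin (m + 1))
    (e : Fin m ≃ {p // s p = k.succ.succ}) :
    Wc φ z k.succ.succ s = ∑ σ : Equiv.Perm (Fin m),
      φ (Fin.cons (part z s 1) (Fin.insertNth k (part z s 0)
        (fun j => z (e (σ j)).1 * part z s (k.succAbove j).succ.succ))) := by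
  have hinj : Function.Injective
      (fun j : Fin m => ((k.succAbove j).succ.succ : Fin (m + 3))) :=
    fun _ _ h => Fin.succAbove_right_injective (ss_inj h)
  rw [eval hφ z k.succ.succ s e (fun j => (k.succAbove j).succ.succ) hinj
    (fun j h => Fin.succAbove_ne k j (ss_inj h)) (fun j => cont_ss hs _)
    (fun j hj h => by
      rcases cases3 j with rfl | rfl | ⟨i, rfl⟩
      · exact cont_zero hs
      · exact cont_one hs
      · have hik : i ≠ k := fun h' => hj (by rw [h'])
        obtain ⟨j, hj'⟩ := Fin.exists_succAbove_eq hik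
        exact absurd (by rw [hj']) (h j))
    (Fin.cons 1 (fun i => if i = k then 0 else i.succ.succ))
    (by
      rw [Fin.cons_injective_iff]
      refine ⟨?_, ?_⟩
      · rintro ⟨i, hi⟩
        by_cases hik : i = k
        · simp only [if_pos hik] at hi
          exact zno hi
        · simp only [if_neg hik] at hi
          exact ss_ne_one i hi
      · intro i i' h
        by_cases hik : i = k
        · by_cases hik' : i' = k
          · rw [hik, hik']
          · simp only [if_pos hik, if_neg hik'] at h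
            exact absurd h.symm (ss_ne_zero i')
        · by_cases hik' : i' = k
          · simp only [if_neg hik, if_pos hik'] at h
            exact absurd h (ss_ne_zero i)
          · simp only [if_neg hik, if_neg hik'] at h
            exact ss_inj h)
    (fun i => by
      refine Fin.cases ?_ (fun i => ?_) i
      · rw [Fin.cons_zero]
        exact (ss_ne_one k).symm
      · rw [Fin.cons_succ]
        by_cases hik : i = k
        · rw [if_pos hik]
          exact (ss_ne_zero k).symm
        · rw [if_neg hik]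
          exact fun h => hik (ss_inj h))]
  apply Finset.sum_congr rfl
  intro σ _
  congr 1
  funext i
  refine Fin.cases ?_ (fun i => ?_) i
  · rw [Fin.cons_zero, Fin.cons_zero, Finset.prod_eq_one, mul_one]
    intro j _
    rw [if_neg (ss_ne_one _)]
  · rw [Fin.cons_succ, Fin.cons_succ]
    by_cases hik : i = k
    · subst hik
      rw [if_pos rfl, Fin.insertNth_apply_same, Finset.prod_eq_one, mul_one]
      intro j _
      rw [if_neg (ss_ne_zero _)]
    · obtain ⟨j, rfl⟩ := Fin.exists_succAbove_eq hik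
      rw [if_neg hik, Fin.insertNth_apply_succAbove, Fintype.prod_eq_single j]
      · rw [if_pos rfl, mul_comm]
      · intro j' hj'
        rw [if_neg (fun h => hj' (hinj h))]

/-- (4) -/
lemma star_w (hφ : IsSymm φ) (hS : StarL L φ) (hz : ∀ p, z p ∈ L) {s : κ → Fin (m + 3)}
    (hs : Cont 0 1 s) :
    Wc φ z 0 s + Wc φ z 1 s = ∑ k : Fin (m + 1), Wc φ z k.succ.succ s := by
  obtain ⟨e0⟩ := exists_e s 0 (cont_zero hs)
  obtain ⟨e1⟩ := exists_e s 1 (cont_one hs)
  have h1 : ∀ k : Fin (m + 1), Nonempty (Fin m ≃ {p // s p = k.succ.succ}) :=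
    fun k => exists_e s _ (cont_ss hs k)
  have h2 := hS (fun i => z (e0 i).1) (fun i => z (e1 i).1) (fun c i => z ((h1 c).some i).1)
    (fun i => hz _) (fun i => hz _) (fun c i => hz _)
  rw [eval_zero hφ hs e0, eval_one hφ hs e1,
    Finset.sum_congr rfl (fun k _ => eval_ss hφ hs k (h1 k).some)]
  rw [part_e z s 0 e0, part_e z s 1 e1]
  have h3 : ∀ k : Fin (m + 1), part z s k.succ.succ = ∏ i, z ((h1 k).some i).1 :=
    fun k => part_e z s _ _
  simp only [h3]
  exact h2

/-- The index set of the other labels. -/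
def CC (m : ℕ) : Finset (Fin (m + 3)) :=
  (univ : Finset (Fin (m + 1))).map ⟨fun k => k.succ.succ, ss_inj⟩

lemma mem_CC (c : Fin (m + 3)) (hc : c ∈ CC m) : c ≠ 0 ∧ c ≠ 1 := by
  unfold CC at hc
  rw [Finset.mem_map] at hc
  obtain ⟨k, _, rfl⟩ := hc
  exact ⟨ss_ne_zero k, ss_ne_one k⟩

lemma fact4 (hφ : IsSymm φ) (hK : KillL L φ) (hS : StarL L φ) (hz : ∀ p, z p ∈ L)
    (hm : Even (m + 1)) :
    G φ z 0 1 1 + G φ z 0 1 1 = ∑ c ∈ CC m, G φ z 0 1 c := by
  funext s w
  rw [Finset.sum_apply, Finset.sum_apply]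
  change G φ z 0 1 1 s w + G φ z 0 1 1 s w = _
  have h1 := congrFun (congrFun (exchW hφ hK hz hm 0 1 zno) s) w
  unfold CC
  rw [Finset.sum_map]
  unfold G at h1 ⊢
  by_cases h : Cont 0 1 s
  · rw [if_pos h, if_pos h] at h1
    rw [if_pos h]
    nth_rewrite 1 [← h1]
    rw [star_w hφ hS hz h]
    apply Finset.sum_congr rfl
    intro k _
    rw [if_pos h]
    rfl
  · rw [if_neg h, add_zero, Finset.sum_eq_zero]
    intro k _
    rw [if_neg h]

/-- The labelled form vanishes. -/
theorem van (hφ : IsSymm φ) (hK : KillL L φ) (hS : StarL L φ) (hz : ∀ p, z p ∈ L)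
    (hm : Even (m + 1)) : G φ z 0 1 1 = 0 := by
  have hx := exchW hφ hK hz hm 0 1 zno
  apply x1 κ (Fin (m + 3)) Unit 0 1 (CC m) (G φ z 0 1 1) (fun c => G φ z 0 1 c) zno
    (fun c hc => mem_CC c hc)
  · rw [← hx, G_symm]
    exact fact1 hφ hK hz 1 0 zno.symm
  · exact fact1 hφ hK hz 0 1 zno
  · intro c hc
    exact fact2 hφ 0 1 c (mem_CC c hc).1 (mem_CC c hc).2
  · intro c hc
    exact fact3 hφ 0 1 c zno (mem_CC c hc).1 (mem_CC c hc).2
  · intro c hc
    have h1 := fact3 (z := z) hφ 1 0 c zno.symm (mem_CC c hc).2 (mem_CC c hc).1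
    rw [G_symm 1 0 c, G_symm 1 0 0, hx] at h1
    exact h1
  · exact fact4 hφ hK hS hz hm

end Star

section Peel

variable {A : Type*} [CommRing A] [Algebra ℂ A] {m : ℕ}
  {L : Submodule ℂ A} {φ : MultilinearMap ℂ (fun _ : Fin (m + 2) => A) ℂ}

/-- The standard word. -/
abbrev KK (m : ℕ) := Fin (m + 1) ⊕ (Fin (m + 1) ⊕ (Fin (m + 1) × Fin m))

/-- The standard labels. -/
def st (m : ℕ) : KK m → Fin (m + 3) :=
  Sum.elim (fun _ => 0) (Sum.elim (fun _ => 1) (fun x => x.1.succ.succ))

/-- The standard letters. -/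
def wd (u w : A) (y : Fin (m + 1) → Fin m → A) : KK m → A :=
  Sum.elim (fun _ => u) (Sum.elim (fun _ => w) (fun x => y x.1 x.2))

lemma part_wd (u w : A) (y : Fin (m + 1) → Fin m → A) (j : Fin (m + 3)) :
    part (wd u w y) (st m) j =
      (∏ _i : Fin (m + 1), if (0 : Fin (m + 3)) = j then u else 1) *
      ((∏ _i : Fin (m + 1), if (1 : Fin (m + 3)) = j then w else 1) *
        ∏ k : Fin (m + 1), ∏ i : Fin m, if (k.succ.succ : Fin (m + 3)) = j then y k i else 1) := by
  unfold part
  rw [Finset.prod_filter, Fintype.prod_sum_type, Fintype.prod_sum_type, Fintype.prod_prod_type]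
  rfl

lemma cnt_st (j : Fin (m + 3)) :
    cnt j (st m) =
      (∑ _i : Fin (m + 1), if (0 : Fin (m + 3)) = j then 1 else 0) +
      ((∑ _i : Fin (m + 1), if (1 : Fin (m + 3)) = j then 1 else 0) +
        ∑ k : Fin (m + 1), ∑ _i : Fin m, if (k.succ.succ : Fin (m + 3)) = j then 1 else 0) := by
  unfold cnt
  rw [Finset.card_filter, Fintype.sum_sum_type, Fintype.sum_sum_type, Fintype.sum_prod_type]
  rfl

lemma cont_st : Cont 0 1 (st m) := by
  intro j
  rw [cnt_st]
  rcases cases3 j with rfl | rfl | ⟨k, rfl⟩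
  · rw [if_pos (Or.inl rfl)]
    have h1 : ∀ k : Fin (m + 1), (k.succ.succ : Fin (m + 3)) ≠ 0 := ss_ne_zero
    simp [h1, zno.symm]
  · rw [if_pos (Or.inr rfl)]
    have h1 : ∀ k : Fin (m + 1), (k.succ.succ : Fin (m + 3)) ≠ 1 := ss_ne_one
    simp [h1]
  · have hn : ¬((k.succ.succ : Fin (m + 3)) = 0 ∨ (k.succ.succ : Fin (m + 3)) = 1) := by
      rintro (h | h)
      · exact ss_ne_zero k h
      · exact ss_ne_one k h
    rw [if_neg hn, Finset.sum_eq_zero (fun i _ => if_neg (ss_ne_zero k).symm), zero_add,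
      Finset.sum_eq_zero (fun i _ => if_neg (ss_ne_one k).symm), zero_add,
      Fintype.sum_eq_single k]
    · rw [Finset.sum_congr rfl (fun i _ => if_pos rfl), Finset.sum_const, Finset.card_univ,
        Fintype.card_fin, smul_eq_mul, mul_one]
    · intro k' hk'
      exact Finset.sum_eq_zero (fun i _ => if_neg (fun h => hk' (ss_inj h)))

/-- **PEEL from KILL and STAR**, `d = m + 1` even. -/
theorem peelL (hφ : IsSymm φ) (hK : KillL L φ) (hS : StarL L φ) (hm : Even (m + 1))
    (u w : A) (hu : u ∈ L) (hw : w ∈ L) (v : Fin (m + 1) → A) (hv : ∀ i, v i ∈ L ^ m) :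
    φ (Fin.cons (u ^ (m + 1)) (fun i => w * v i)) = 0 := by
  classical
  have h0 : mulArg (φ.curryLeft (u ^ (m + 1))) (fun _ => w) v = 0 := by
    apply multilinear_zero_of_span _
      {g : A | ∃ y : Fin m → A, (∀ s, y s ∈ L) ∧ g = ∏ s, y s}
    · intro v hv
      choose y hy hvy using hv
      rw [mulArg_apply, MultilinearMap.curryLeft_apply]
      have hz : ∀ p, wd u w y p ∈ L := by
        rintro (p | p | p)
        · exact hu
        · exact hw
        · exact hy _ _
      have h1 := congrFun (congrFun (van hφ hK hS hz hm) (st m)) ()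
      unfold G at h1
      rw [if_pos cont_st] at h1
      obtain ⟨e1⟩ := exists_e (st m) 1 (cont_one cont_st)
      rw [eval_one hφ cont_st e1] at h1
      have h2 : ∀ i, wd u w y (e1 i).1 = w := by
        intro i
        have h3 := (e1 i).2
        generalize (e1 i).1 = p at h3
        rcases p with p | p | p
        · exact absurd h3 zno
        · rfl
        · exact absurd h3 (ss_ne_one p.1)
      simp only [h2] at h1
      have h3 : part (wd u w y) (st m) 0 = u ^ (m + 1) := by
        rw [part_wd, Finset.prod_congr rfl (fun i _ => if_pos rfl), Finset.prod_const,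
          Finset.card_univ, Fintype.card_fin,
          Finset.prod_eq_one (fun i _ => if_neg zno.symm), one_mul,
          Finset.prod_eq_one (fun k _ => Finset.prod_eq_one
            (fun i _ => if_neg (ss_ne_zero k))), mul_one]
      have h4 : ∀ k : Fin (m + 1), part (wd u w y) (st m) k.succ.succ = v k := by
        intro k
        rw [part_wd, Finset.prod_eq_one (fun i _ => if_neg (ss_ne_zero k).symm), one_mul,
          Finset.prod_eq_one (fun i _ => if_neg (ss_ne_one k).symm), one_mul,
          Fintype.prod_eq_single k, hvy]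
        · exact Finset.prod_congr rfl (fun i _ => if_pos rfl)
        · intro k' hk'
          exact Finset.prod_eq_one (fun i _ => if_neg (fun h => hk' (ss_inj h)))
      simp only [h3, h4] at h1
      rw [Finset.sum_const, nsmul_eq_mul] at h1
      refine (mul_eq_zero.1 h1).resolve_left (Nat.cast_ne_zero.2 ?_)
      rw [Finset.card_univ]
      exact Fintype.card_ne_zero
    · intro i
      have h2 : L ^ m ≤ Submodule.span ℂ {g : A | ∃ y : Fin m → A, (∀ s, y s ∈ L) ∧
          g = ∏ s, y s} := by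
        have h3 := span_pow_eq (z := (Subtype.val : L → A)) m
        rw [Subtype.range_coe] at h3
        rw [Submodule.span_eq] at h3
        refine h3.trans (Submodule.span_mono ?_)
        rintro _ ⟨c, rfl⟩
        exact ⟨fun s => (c s : A), fun s => (c s).2, rfl⟩
      exact h2 (hv i)
  rw [mulArg_apply, MultilinearMap.curryLeft_apply] at h0
  exact h0

end Peel

end Vale.Agent.P181.H715.LT
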